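import Vale.Agent.Results.P249.SubPoly
import Vale.Agent.Lib.P249.LowE

/-!
# Dimension reduction in `L_p`: subpolynomial upper bound, super-logarithmic lower bound

For every `1 < p < ∞` there is `θ < 1` such that for all `D > 1` the least dimension `d_p(n, D)`
is at most `exp (C (log n)^θ)`, so `d_p(n, D) = o(n^ε)` for every `ε > 0`.
For `p > 2` it is at least `c (log n / log log n)^(p/2)`, so it is not `O(log n)`.
-/

namespace Vale.Agent.Results.P249.Bounds

open MeasureTheory Filter Asymptotics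
open scoped ENNReal Topology

universe u

/-- The map `f` has distortion at most `D` on the finite set `X`. -/
def DistortionAtMost {E F : Type*} [NormedAddCommGroup E] [NormedAddCommGroup F]
    (f : E → F) (X : Finset E) (D : ℝ) : Prop :=
  ∃ s : ℝ, 0 < s ∧ ∀ x ∈ X, ∀ y ∈ X,
    s * ‖x - y‖ ≤ ‖f x - f y‖ ∧ ‖f x - f y‖ ≤ D * s * ‖x - y‖

/-- Every `n`-point subset of every real `L_p` space (over an arbitrary measure space) admits a
map into `ℓ_p^d` with distortion at most `D`. -/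
def AllEmbed (p : ℝ≥0∞) [Fact (1 ≤ p)] (D : ℝ) (n d : ℕ) : Prop :=
  ∀ (Ω : Type u) [MeasurableSpace Ω] (μ : Measure Ω) (X : Finset (Lp ℝ p μ)), X.card = n →
    ∃ f : Lp ℝ p μ → PiLp p (fun _ : Fin d => ℝ), DistortionAtMost f X D

/-- The least dimension `d_p(n, D)`. -/
noncomputable def dp (p : ℝ≥0∞) [Fact (1 ≤ p)] (D : ℝ) (n : ℕ) : ℕ :=
  sInf {d : ℕ | AllEmbed.{u} p D n d}

/-- `log n = o((log n / log log n)^q)` for `q > 1` -/
theorem log_isLittleO {q c : ℝ} (hq : 1 < q) (hc : 0 < c) :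
    (fun n : ℕ => Real.log n) =o[atTop]
      (fun n : ℕ => c * (Real.log n / Real.log (Real.log n)) ^ q) := by
  have hlog : Tendsto (fun n : ℕ => Real.log (n : ℝ)) atTop atTop :=
    Real.tendsto_log_atTop.comp tendsto_natCast_atTop_atTop
  have h1 : (fun x : ℝ => x) =o[atTop] (fun x : ℝ => c * (x / Real.log x) ^ q) := by
    have h2 : (fun x : ℝ => Real.log x ^ q) =o[atTop] (fun x : ℝ => x ^ (q - 1)) :=
      isLittleO_log_rpow_rpow_atTop q (by linarith)
    have h3 : (fun x : ℝ => x * Real.log x ^ q) =o[atTop] (fun x : ℝ => x * x ^ (q - 1)) :=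
      (isBigO_refl _ _).mul_isLittleO h2
    have h4 : (fun x : ℝ => x) =o[atTop] (fun x : ℝ => (x / Real.log x) ^ q) := by
      rw [isLittleO_iff] at h3 ⊢
      intro ε hε
      filter_upwards [h3 hε, eventually_gt_atTop 1] with x hx hx1
      have hx0 : 0 < x := by linarith
      have hl : 0 < Real.log x := Real.log_pos hx1
      have hlq : 0 < Real.log x ^ q := by positivity
      have e1 : x * x ^ (q - 1) = x ^ q := by
        rw [mul_comm, ← Real.rpow_add_one hx0.ne']; congr 1; ring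
      rw [e1, Real.norm_of_nonneg (by positivity), Real.norm_of_nonneg (by positivity)] at hx
      rw [Real.norm_of_nonneg hx0.le, Real.norm_of_nonneg (by positivity),
        Real.div_rpow hx0.le hl.le, mul_div_assoc', le_div_iff₀ hlq]
      exact hx
    exact h4.const_mul_right hc.ne'
  exact h1.comp_tendsto hlog

/-- **Main theorem.** Upper bounds for `1 < p < ∞`, lower bounds for `2 < p < ∞`. -/
theorem result (p : ℝ≥0∞) [Fact (1 ≤ p)] (hp1 : 1 < p) (hp : p ≠ ∞) :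
    (∃ θ : ℝ, 0 < θ ∧ θ < 1 ∧ ∀ D : ℝ, 1 < D → ∃ C : ℝ, 0 < C ∧ ∀ n : ℕ, 2 ≤ n →
      AllEmbed.{u} p D n (dp.{u} p D n) ∧
        (dp.{u} p D n : ℝ) ≤ Real.exp (C * Real.log n ^ θ)) ∧
    (∀ D : ℝ, 1 < D → ∀ ε : ℝ, 0 < ε →
      (fun n : ℕ => (dp.{u} p D n : ℝ)) =o[atTop] (fun n : ℕ => (n : ℝ) ^ ε)) ∧
    (∀ D : ℝ, 1 < D → (fun n : ℕ => (dp.{u} p D n : ℝ)) =o[atTop] (fun n : ℕ => (n : ℝ))) ∧
    (2 < p → ∀ D : ℝ, 1 < D → ∃ c : ℝ, 0 < c ∧ ∀ n : ℕ, 55 ≤ n →
      c * (Real.log n / Real.log (Real.log n)) ^ (p.toReal / 2) ≤ (dp.{u} p D n : ℝ)) ∧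
    (2 < p → ∀ D : ℝ, 1 < D →
      (fun n : ℕ => Real.log n) =o[atTop] (fun n : ℕ => (dp.{u} p D n : ℝ))) := by
  obtain ⟨hA, hB, hC⟩ := Vale.Agent.Results.P249.SubPoly.result.{u} p hp1 hp
  have hlow : 2 < p → ∀ D : ℝ, 1 < D → ∃ c : ℝ, 0 < c ∧ ∀ n : ℕ, 55 ≤ n →
      c * (Real.log n / Real.log (Real.log n)) ^ (p.toReal / 2) ≤ (dp.{u} p D n : ℝ) := by
    intro hp2 D hD
    have hq2 : 2 < p.toReal := by
      have h := (ENNReal.toReal_lt_toReal (by norm_num : (2:ℝ≥0∞) ≠ ∞) hp).mpr hp2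
      simpa using h
    obtain ⟨c, hc, h⟩ := Vale.Agent.Lib.P249.low_main.{u} p hp hq2.le (D := D) (by linarith)
    obtain ⟨θ, _, _, hmain⟩ := hA
    obtain ⟨C, _, hmem⟩ := hmain D hD
    refine ⟨c, hc, fun n hn => ?_⟩
    apply h n hn
    have h1 := (hmem n (by omega)).1
    intro Ω _ μ X hX
    obtain ⟨f, s, hs, hf⟩ := h1 Ω μ X hX
    exact ⟨f, s, hs, hf⟩
  refine ⟨hA, hB, hC, hlow, ?_⟩
  intro hp2 D hD
  obtain ⟨c, hc, h⟩ := hlow hp2 D hD
  have hq2 : 2 < p.toReal := by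
    have h := (ENNReal.toReal_lt_toReal (by norm_num : (2:ℝ≥0∞) ≠ ∞) hp).mpr hp2
    simpa using h
  refine (log_isLittleO (q := p.toReal / 2) (c := c) (by linarith) hc).trans_isBigO ?_
  apply IsBigO.of_bound 1
  filter_upwards [eventually_ge_atTop 55] with n hn
  have hn' : (55:ℝ) ≤ n := by exact_mod_cast hn
  have h2 : 1 ≤ Real.log n := by
    rw [Real.le_log_iff_exp_le (by linarith)]
    have := Real.exp_one_lt_d9
    linarith
  have h3 : 0 ≤ Real.log (Real.log n) := Real.log_nonneg h2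
  rw [Real.norm_of_nonneg (by positivity), one_mul, Real.norm_of_nonneg (by positivity)]
  exact h n hn

end Vale.Agent.Results.P249.Bounds
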