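import Vale.Agent.Lib.H20.LpEmbed

/-!
# Dimension reduction for finite subsets of `L_p`

For every finite `p ≥ 1` (the new range is `p > 2`) and every `D > 1`, every `n`-point subset of
every real `L_p` space embeds into `ℓ_p^d` with distortion at most `D` where `d` is at most a
constant (depending on `p` and `D`) times `n log n`.
-/

namespace Vale.Agent.Results.P249.NLogN

open MeasureTheory
open scoped ENNReal

universe u

/-- The map `f` has distortion at most `D` on the finite set `X`. -/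
def DistortionAtMost {E F : Type*} [NormedAddCommGroup E] [NormedAddCommGroup F]
    (f : E → F) (X : Finset E) (D : ℝ) : Prop :=
  ∃ s : ℝ, 0 < s ∧ ∀ x ∈ X, ∀ y ∈ X,
    s * ‖x - y‖ ≤ ‖f x - f y‖ ∧ ‖f x - f y‖ ≤ D * s * ‖x - y‖

/-- Every `n`-point subset of every real `L_p` space (over an arbitrary measure space) admits a
map into `ℓ_p^d` with distortion at most `D`. -/
def AllEmbed (p : ℝ≥0∞) [Fact (1 ≤ p)] (D : ℝ) (n d : ℕ) : Prop :=
  ∀ (Ω : Type u) [MeasurableSpace Ω] (μ : Measure Ω) (X : Finset (Lp ℝ p μ)), X.card = n →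
    ∃ f : Lp ℝ p μ → PiLp p (fun _ : Fin d => ℝ), DistortionAtMost f X D

/-- The least dimension `d_p(n, D)`. -/
noncomputable def dp (p : ℝ≥0∞) [Fact (1 ≤ p)] (D : ℝ) (n : ℕ) : ℕ :=
  sInf {d : ℕ | AllEmbed.{u} p D n d}

/-- **Main theorem.** First part: for finite `p ≥ 1` and `D > 1` there is a constant `C` with
`d_p(n, D) ≤ C n log n` for all `n ≥ 2` (and the least dimension is attained). Second part, with
explicit dependence on the distortion and linear maps: there is `C` depending only on `p` such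
that for `0 < ε ≤ 1`, `n ≥ 2` and every `d ≥ C n log n / ε²`, each `n`-point subset of each
real `L_p` space has a linear map into `ℓ_p^d` of distortion at most `1 + ε` on it. -/
theorem result (p : ℝ≥0∞) [Fact (1 ≤ p)] (hp : p ≠ ∞) :
    (∀ D : ℝ, 1 < D → ∃ C : ℝ, 0 < C ∧ ∀ n : ℕ, 2 ≤ n →
      AllEmbed.{u} p D n (dp.{u} p D n) ∧ (dp.{u} p D n : ℝ) ≤ C * (n * Real.log n)) ∧
    (∃ C : ℝ, 0 < C ∧ ∀ ε : ℝ, 0 < ε → ε ≤ 1 → ∀ n d : ℕ, 2 ≤ n →
      C * (n * Real.log n) / ε ^ 2 ≤ d →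
        ∀ (Ω : Type u) [MeasurableSpace Ω] (μ : Measure Ω) (X : Finset (Lp ℝ p μ)), X.card = n →
          ∃ f : Lp ℝ p μ →ₗ[ℝ] PiLp p (fun _ : Fin d => ℝ),
            DistortionAtMost (fun x => f x) X (1 + ε)) := by
  have hp1 : (1:ℝ≥0∞) ≤ p := Fact.out
  have hq1 : 1 ≤ p.toReal := by
    rw [← ENNReal.toReal_one]
    exact (ENNReal.toReal_le_toReal ENNReal.one_ne_top hp).mpr hp1
  have hS : 0 < 108 * Vale.Agent.Lib.H20.Sst p.toReal := by
    have := Vale.Agent.Lib.H20.Sst_pos hq1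
    positivity
  have second : ∀ ε : ℝ, 0 < ε → ε ≤ 1 → ∀ n d : ℕ, 2 ≤ n →
      108 * Vale.Agent.Lib.H20.Sst p.toReal * (n * Real.log n) / ε ^ 2 ≤ d →
        ∀ (Ω : Type u) [MeasurableSpace Ω] (μ : Measure Ω) (X : Finset (Lp ℝ p μ)), X.card = n →
          ∃ f : Lp ℝ p μ →ₗ[ℝ] PiLp p (fun _ : Fin d => ℝ),
            DistortionAtMost (fun x => f x) X (1 + ε) := by
    intro ε hε0 hε1 n d hn hd Ω _ μ X hX
    obtain ⟨f, s, hs, hf⟩ := Vale.Agent.Lib.H20.embed_main p hp μ X (by omega) hε0 hε1 d (by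
      rw [hX]
      rw [div_le_iff₀ (by positivity)] at hd
      linarith)
    refine ⟨f, s, hs, ?_⟩
    intro x hx y hy
    obtain ⟨h1, h2⟩ := hf x hx y hy
    exact ⟨h1, by rw [mul_assoc]; exact h2⟩
  refine ⟨?_, 108 * Vale.Agent.Lib.H20.Sst p.toReal, hS, second⟩
  intro D hD
  set ε := min (D - 1) 1 with hε
  have hε0 : 0 < ε := lt_min (by linarith) one_pos
  have hε1 : ε ≤ 1 := min_le_right _ _
  have hεD : 1 + ε ≤ D := by
    have := min_le_left (D - 1) 1
    linarith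
  refine ⟨108 * Vale.Agent.Lib.H20.Sst p.toReal / ε ^ 2 + 2, by positivity, ?_⟩
  intro n hn
  have hlog : 1 / 2 ≤ Real.log n := by
    have h1 : Real.log 2 ≤ Real.log n := Real.log_le_log (by norm_num) (by exact_mod_cast hn)
    have h2 := Real.log_two_gt_d9
    linarith
  have hn2 : (2:ℝ) ≤ n := by exact_mod_cast hn
  have hnlog : 1 ≤ n * Real.log n := by nlinarith
  set d₀ := ⌈108 * Vale.Agent.Lib.H20.Sst p.toReal * (n * Real.log n) / ε ^ 2⌉₊ with hd₀
  have hmem : AllEmbed.{u} p D n d₀ := by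
    intro Ω _ μ X hX
    obtain ⟨f, s, hs, hf⟩ := second ε hε0 hε1 n d₀ hn (Nat.le_ceil _) Ω μ X hX
    refine ⟨f, s, hs, ?_⟩
    intro x hx y hy
    obtain ⟨h1, h2⟩ := hf x hx y hy
    refine ⟨h1, h2.trans ?_⟩
    have := norm_nonneg (x - y)
    gcongr
  have hne : {d : ℕ | AllEmbed.{u} p D n d}.Nonempty := ⟨d₀, hmem⟩
  refine ⟨Nat.sInf_mem hne, ?_⟩
  have h1 : dp.{u} p D n ≤ d₀ := Nat.sInf_le hmem
  have h2 : (d₀ : ℝ) ≤ 108 * Vale.Agent.Lib.H20.Sst p.toReal * (n * Real.log n) / ε ^ 2 + 1 := by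
    have hnn : 0 ≤ 108 * Vale.Agent.Lib.H20.Sst p.toReal * (n * Real.log n) / ε ^ 2 := by
      have : 0 ≤ n * Real.log n := by linarith
      positivity
    exact (Nat.ceil_lt_add_one hnn).le
  have h3 : (dp.{u} p D n : ℝ) ≤ d₀ := by exact_mod_cast h1
  calc (dp.{u} p D n : ℝ)
      ≤ 108 * Vale.Agent.Lib.H20.Sst p.toReal * (n * Real.log n) / ε ^ 2 + 1 := h3.trans h2
    _ ≤ 108 * Vale.Agent.Lib.H20.Sst p.toReal * (n * Real.log n) / ε ^ 2
        + 2 * (n * Real.log n) := by linarith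
    _ = (108 * Vale.Agent.Lib.H20.Sst p.toReal / ε ^ 2 + 2) * (n * Real.log n) := by ring

end Vale.Agent.Results.P249.NLogN
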