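import Vale.Agent.Lib.P249.Final
import Vale.Agent.Lib.P249.HajPow
import Vale.Agent.Lib.P249.Asm2

/-!
# Dimension reduction in `L_p` with subpolynomial dimension

For every `1 < p < ∞` there is `θ < 1` such that for all `D > 1` the least dimension `d_p(n, D)`
is at most `exp (C (log n)^θ)`; in particular `d_p(n, D) = o(n^ε)` for every `ε > 0`, and
`d_p(n, D) = o(n)`.
-/

namespace Vale.Agent.Results.P249.SubPoly

open MeasureTheory Filter Asymptotics
open scoped ENNReal Topology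

universe u

/-- The map `f` has distortion at most `D` on the finite set `X`. -/
def DistortionAtMost {E F : Type*} [NormedAddCommGroup E] [NormedAddCommGroup F]
    (f : E → F) (X : Finset E) (D : ℝ) : Prop :=
  ∃ s : ℝ, 0 < s ∧ ∀ x ∈ X, ∀ y ∈ X,
    s * ‖x - y‖ ≤ ‖f x - f y‖ ∧ ‖f x - f y‖ ≤ D * s * ‖x - y‖

/-- Every `n`-point subset of every real `L_p` space (over an arbitrary measure space) admits a
map into `ℓ_p^d` with distortion at most `D`. -/
def AllEmbed (p : ℝ≥0∞) [Fact (1 ≤ p)] (D : ℝ) (n d : ℕ) : Prop :=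
  ∀ (Ω : Type u) [MeasurableSpace Ω] (μ : Measure Ω) (X : Finset (Lp ℝ p μ)), X.card = n →
    ∃ f : Lp ℝ p μ → PiLp p (fun _ : Fin d => ℝ), DistortionAtMost f X D

/-- The least dimension `d_p(n, D)`. -/
noncomputable def dp (p : ℝ≥0∞) [Fact (1 ≤ p)] (D : ℝ) (n : ℕ) : ℕ :=
  sInf {d : ℕ | AllEmbed.{u} p D n d}

/-- `exp (C (log n)^θ) = o(n^ε)` -/
theorem exp_log_isLittleO {C θ ε : ℝ} (hθ1 : θ < 1) (hε : 0 < ε) :
    (fun n : ℕ => Real.exp (C * Real.log n ^ θ) + 1) =o[atTop] (fun n : ℕ => (n : ℝ) ^ ε) := by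
  have hlog : Tendsto (fun n : ℕ => Real.log (n : ℝ)) atTop atTop :=
    Real.tendsto_log_atTop.comp tendsto_natCast_atTop_atTop
  have h1 : (fun n : ℕ => Real.exp (C * Real.log n ^ θ)) =o[atTop] (fun n : ℕ => (n : ℝ) ^ ε) := by
    have h2 : (fun x : ℝ => Real.exp (C * x ^ θ)) =o[atTop] (fun x : ℝ => Real.exp (ε * x)) := by
      rw [Real.isLittleO_exp_comp_exp_comp]
      have h3 : Tendsto (fun x : ℝ => x * (ε - C * x ^ (θ - 1))) atTop atTop := by
        apply Tendsto.atTop_mul_pos (C := ε) hε tendsto_id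
        have h4 : Tendsto (fun x : ℝ => x ^ (θ - 1)) atTop (𝓝 0) := by
          have := tendsto_rpow_neg_atTop (y := 1 - θ) (by linarith)
          simpa using this
        have := (h4.const_mul C).const_sub ε
        simpa using this
      refine h3.congr' ?_
      filter_upwards [eventually_gt_atTop 0] with x hx
      have : x ^ (θ - 1) * x = x ^ θ := by
        rw [← Real.rpow_add_one hx.ne']; congr 1; ring
      rw [mul_sub, ← this]
      ring
    have h5 := h2.comp_tendsto hlog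
    refine h5.congr' (Eventually.of_forall fun n => rfl) ?_
    filter_upwards [eventually_gt_atTop 0] with n hn
    have hn' : (0:ℝ) < n := by exact_mod_cast hn
    simp only [Function.comp]
    rw [Real.rpow_def_of_pos hn', mul_comm]
  refine h1.add ?_
  have h6 : Tendsto (fun n : ℕ => (n : ℝ) ^ ε) atTop atTop :=
    (tendsto_rpow_atTop hε).comp tendsto_natCast_atTop_atTop
  exact isLittleO_const_left.mpr (Or.inr (tendsto_norm_atTop_atTop.comp h6))

/-- **Main theorem.** For `1 < p < ∞` there is `θ ∈ (0, 1)` such that for each `D > 1` there is `C`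
with `d_p(n, D) ≤ exp (C (log n)^θ)` for all `n ≥ 2` (and the least dimension is attained).
Consequently `d_p(n, D) = o(n^ε)` for all `ε > 0`; in particular `d_p(n, D) = o(n)`. -/
theorem result (p : ℝ≥0∞) [Fact (1 ≤ p)] (hp1 : 1 < p) (hp : p ≠ ∞) :
    (∃ θ : ℝ, 0 < θ ∧ θ < 1 ∧ ∀ D : ℝ, 1 < D → ∃ C : ℝ, 0 < C ∧ ∀ n : ℕ, 2 ≤ n →
      AllEmbed.{u} p D n (dp.{u} p D n) ∧
        (dp.{u} p D n : ℝ) ≤ Real.exp (C * Real.log n ^ θ)) ∧
    (∀ D : ℝ, 1 < D → ∀ ε : ℝ, 0 < ε →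
      (fun n : ℕ => (dp.{u} p D n : ℝ)) =o[atTop] (fun n : ℕ => (n : ℝ) ^ ε)) ∧
    (∀ D : ℝ, 1 < D → (fun n : ℕ => (dp.{u} p D n : ℝ)) =o[atTop] (fun n : ℕ => (n : ℝ))) := by
  have hq1 : 1 < p.toReal := by
    rw [← ENNReal.toReal_one]
    exact (ENNReal.toReal_lt_toReal ENNReal.one_ne_top hp).mpr hp1
  have hpow : Vale.Agent.Lib.P249.HPow p.toReal := by
    obtain ⟨C, th, h1, h2, h3, h4⟩ := Vale.Agent.Lib.P249.hajlasz_pow hq1
    exact ⟨C, th, h1, h2, h3, fun A W _ _ _ x => h4 A W x⟩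
  obtain ⟨θ, hθ0, hθ1, hmain⟩ := Vale.Agent.Lib.P249.final_embed.{u} p hp hpow
    (fun D hD => Vale.Agent.Lib.P249.asm2 hq1.le hD)
  have first : ∀ D : ℝ, 1 < D → ∃ C : ℝ, 0 < C ∧ ∀ n : ℕ, 2 ≤ n →
      AllEmbed.{u} p D n (dp.{u} p D n) ∧
        (dp.{u} p D n : ℝ) ≤ Real.exp (C * Real.log n ^ θ) := by
    intro D hD
    obtain ⟨C, hC, h⟩ := hmain D hD
    have hll : 0 < Real.log 2 := Real.log_pos (by norm_num)
    -- replace `C` by a larger constant to absorb the rounding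
    refine ⟨C + Real.log 2 / Real.log 2 ^ θ, by positivity, ?_⟩
    intro n hn
    have hn2 : (2:ℝ) ≤ n := by exact_mod_cast hn
    set d₀ := ⌈Real.exp (C * Real.log n ^ θ)⌉₊ with hd₀
    have hmem : AllEmbed.{u} p D n d₀ := by
      intro Ω _ μ X hX
      obtain ⟨f, s, hs, hf⟩ := h n hn d₀ (Nat.le_ceil _) μ X hX
      exact ⟨f, s, hs, hf⟩
    refine ⟨Nat.sInf_mem (s := {d : ℕ | AllEmbed.{u} p D n d}) ⟨d₀, hmem⟩, ?_⟩
    have h1 : dp.{u} p D n ≤ d₀ := Nat.sInf_le hmem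
    have h1' : (dp.{u} p D n : ℝ) ≤ d₀ := by exact_mod_cast h1
    have h2 : (d₀ : ℝ) ≤ Real.exp (C * Real.log n ^ θ) + 1 :=
      (Nat.ceil_lt_add_one (Real.exp_pos _).le).le
    have hlogn : Real.log 2 ≤ Real.log n := Real.log_le_log (by norm_num) hn2
    have h3 : (1:ℝ) ≤ Real.exp (C * Real.log n ^ θ) := by
      apply Real.one_le_exp
      have : 0 ≤ Real.log n ^ θ := Real.rpow_nonneg (by linarith) _
      positivity
    have h4 : Real.exp (C * Real.log n ^ θ) + 1 ≤ 2 * Real.exp (C * Real.log n ^ θ) := by linarith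
    refine h1'.trans (h2.trans (h4.trans ?_))
    rw [add_mul, Real.exp_add, mul_comm]
    apply mul_le_mul_of_nonneg_left _ (Real.exp_pos _).le
    have h5 : Real.log 2 ≤ Real.log 2 / Real.log 2 ^ θ * Real.log n ^ θ := by
      have h6 : Real.log 2 ^ θ ≤ Real.log n ^ θ := Real.rpow_le_rpow hll.le hlogn hθ0.le
      have h7 : 0 < Real.log 2 ^ θ := by positivity
      rw [div_mul_eq_mul_div, le_div_iff₀ h7]
      gcongr
    calc (2:ℝ) = Real.exp (Real.log 2) := (Real.exp_log (by norm_num)).symm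
      _ ≤ _ := Real.exp_le_exp.mpr h5
  have second : ∀ D : ℝ, 1 < D → ∀ ε : ℝ, 0 < ε →
      (fun n : ℕ => (dp.{u} p D n : ℝ)) =o[atTop] (fun n : ℕ => (n : ℝ) ^ ε) := by
    intro D hD ε hε
    obtain ⟨C, hC, h⟩ := first D hD
    refine IsBigO.trans_isLittleO ?_ (exp_log_isLittleO (C := C) (θ := θ) hθ1 hε)
    apply IsBigO.of_bound 1
    filter_upwards [eventually_ge_atTop 2] with n hn
    have h1 := (h n hn).2
    rw [Real.norm_of_nonneg (by positivity), one_mul, Real.norm_of_nonneg (by positivity)]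
    linarith
  refine ⟨⟨θ, hθ0, hθ1, first⟩, second, ?_⟩
  intro D hD
  have := second D hD 1 one_pos
  simpa using this

end Vale.Agent.Results.P249.SubPoly
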